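import Crest.Agent.X212.Par72.Main

/-! Charts of regular zero sets in Banach spaces, and the centre-only form of the boundary
parity theorem. -/

namespace Crest.Agent.X212.Par72

open Set Filter Topology Function
open scoped NNReal

section Banach

variable {E F R : Type*} [NormedAddCommGroup E] [NormedSpace ℝ E] [CompleteSpace E]
  [NormedAddCommGroup F] [NormedSpace ℝ F] [CompleteSpace F]
  [NormedAddCommGroup R] [NormedSpace ℝ R] [CompleteSpace R]

/-- If `(G', τ')` is bijective then `τ` is a chart of any set `S` that is `{G = 0}` near `x`. -/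
theorem chart_of_bij {G : E → F} {τ : E → R} {x : E} {G' : E →L[ℝ] F} {τ' : E →L[ℝ] R}
    (hG : HasStrictFDerivAt G G' x) (hτ : HasStrictFDerivAt τ τ' x)
    (hb : Bijective (G'.prod τ')) {S : Set E} (hx : x ∈ S)
    (hS : ∀ᶠ y in 𝓝 x, y ∈ S ↔ G y = 0) :
    ∃ e : OpenPartialHomeomorph S R, ⟨x, hx⟩ ∈ e.source ∧ ∀ y : S, e y = τ y := by
  classical
  let L : E ≃L[ℝ] F × R := ContinuousLinearEquiv.ofBijective (G'.prod τ')
    (LinearMap.ker_eq_bot.2 hb.1) (LinearMap.range_eq_top.2 hb.2)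
  have hΦ : HasStrictFDerivAt (fun y => (G y, τ y)) (L : E →L[ℝ] F × R) x := hG.prodMk hτ
  obtain ⟨V, hV, hVo, hxV⟩ := eventually_nhds_iff.1 hS
  let φ := (hΦ.toOpenPartialHomeomorph _).restrOpen V hVo
  have hφ : ∀ y, φ y = (G y, τ y) := fun _ => rfl
  have hφV : ∀ y ∈ φ.source, (y ∈ S ↔ G y = 0) := fun y hy => hV y hy.2
  have hmem : ∀ t, ((0 : F), t) ∈ φ.target → φ.symm (0, t) ∈ S := fun t ht =>
    (hφV _ (φ.map_target ht)).2 (congrArg Prod.fst ((hφ _).symm.trans (φ.right_inv ht)))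
  have hval : ∀ y : S, y.1 ∈ φ.source → φ y = (0, τ y) := fun y hy => by
    rw [hφ, (hφV _ hy).1 y.2]
  let inv : R → S := fun t => if h : ((0 : F), t) ∈ φ.target then ⟨_, hmem t h⟩ else ⟨x, hx⟩
  have hinv : ∀ t, ((0 : F), t) ∈ φ.target → (inv t).1 = φ.symm (0, t) := fun t ht => by
    simp only [inv, dif_pos ht]
  refine ⟨{ toFun := fun y => τ y
            invFun := inv
            source := Subtype.val ⁻¹' φ.source
            target := {t | ((0 : F), t) ∈ φ.target}
            map_source' := fun y hy => ?_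
            map_target' := fun t ht => ?_
            left_inv' := fun y hy => ?_
            right_inv' := fun t ht => ?_
            open_source := φ.open_source.preimage continuous_subtype_val
            open_target := φ.open_target.preimage (by fun_prop)
            continuousOn_toFun := ?_
            continuousOn_invFun := ?_ }, ⟨hΦ.mem_toOpenPartialHomeomorph_source, hxV⟩, fun _ => rfl⟩
  · have := φ.map_source hy
    rwa [hval y hy] at this
  · show (inv t).1 ∈ φ.source
    rw [hinv t ht]; exact φ.map_target ht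
  · have h1 := φ.map_source hy
    rw [hval y hy] at h1
    apply Subtype.ext
    rw [hinv _ h1, ← hval y hy, φ.left_inv hy]
  · show τ (inv t).1 = t
    rw [hinv t ht]
    exact congrArg Prod.snd ((hφ _).symm.trans (φ.right_inv ht))
  · exact (continuous_snd.comp_continuousOn φ.continuousOn).comp
      continuous_subtype_val.continuousOn fun _ h => h
  · rw [IsInducing.subtypeVal.continuousOn_iff]
    refine ContinuousOn.congr (f := fun t => φ.symm (0, t)) ?_ fun t ht => hinv t ht
    exact φ.continuousOn_symm.comp (by fun_prop) fun _ h => h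

/-- the one-dimensional case: `τ` is a transverse level of `S` at `x`. -/
theorem tr_of_bij {G : E → F} {τ : E → ℝ} {x : E} {G' : E →L[ℝ] F} {τ' : E →L[ℝ] ℝ}
    (hG : HasStrictFDerivAt G G' x) (hτ : HasStrictFDerivAt τ τ' x)
    (hb : Bijective (G'.prod τ')) {S : Set E} (hx : x ∈ S)
    (hS : ∀ᶠ y in 𝓝 x, y ∈ S ↔ G y = 0) : Tr (fun y : S => τ y) ⟨x, hx⟩ := by
  obtain ⟨e, h1, h2⟩ := chart_of_bij hG hτ hb hx hS
  exact ⟨e, h1, Eventually.of_forall fun y => (h2 y).symm⟩

omit [CompleteSpace E] [CompleteSpace F] in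
theorem bij_of_ker {G' : E →L[ℝ] F} {τ' : E →L[ℝ] ℝ} (hs : Surjective G')
    (hk : Module.finrank ℝ (G' : E →ₗ[ℝ] F).ker = 1) {v : E} (hv : G' v = 0) (hτ : τ' v ≠ 0) :
    Bijective (G'.prod τ') := by
  have hv0 : (⟨v, hv⟩ : (G' : E →ₗ[ℝ] F).ker) ≠ 0 := fun h =>
    hτ (by rw [show v = 0 from congrArg Subtype.val h, map_zero])
  have hspan := (finrank_eq_one_iff_of_nonzero' _ hv0).1 hk
  constructor
  · rw [injective_iff_map_eq_zero]
    intro w hw
    obtain ⟨c, hc⟩ := hspan ⟨w, congrArg Prod.fst hw⟩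
    have hc' : c • v = w := congrArg Subtype.val hc
    have h2 : τ' w = 0 := congrArg Prod.snd hw
    rw [← hc', map_smul, smul_eq_mul, mul_eq_zero] at h2
    rw [← hc', h2.resolve_right hτ, zero_smul]
  · rintro ⟨f, t⟩
    obtain ⟨w, rfl⟩ := hs f
    refine ⟨w + ((t - τ' w) / τ' v) • v, ?_⟩
    rw [ContinuousLinearMap.prod_apply]
    simp only [map_add, map_smul, hv, smul_zero, add_zero, smul_eq_mul, Prod.mk.injEq, true_and]
    field_simp
    ring

omit [CompleteSpace E] [CompleteSpace F] in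
/-- regularity of the facet problem (`G'` onto on `ker τ'`) gives transversality. -/
theorem bij_of_facet {G' : E →L[ℝ] F} {τ' : E →L[ℝ] ℝ} (hτ : τ' ≠ 0)
    (hs : ∀ f, ∃ w, τ' w = 0 ∧ G' w = f)
    (hk : Module.finrank ℝ (G' : E →ₗ[ℝ] F).ker = 1) : Bijective (G'.prod τ') := by
  obtain ⟨u, hu⟩ : ∃ u, τ' u ≠ 0 := by
    by_contra h
    exact hτ (ContinuousLinearMap.ext fun u => by simpa using not_exists.1 h u)
  obtain ⟨w, h1, h2⟩ := hs (G' u)
  refine bij_of_ker (v := u - w) (fun f => ?_) hk (by rw [map_sub, h2, sub_self])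
    (by rwa [map_sub, h1, sub_zero])
  obtain ⟨w, -, h⟩ := hs f
  exact ⟨w, h⟩

omit [CompleteSpace E] [CompleteSpace F] in
/-- the facet problem has bijective linearisation (index 0, regular): transversality, with no
dimension count. -/
theorem bij_of_facet' {G' : E →L[ℝ] F} {τ' : E →L[ℝ] ℝ} (hτ : τ' ≠ 0)
    (hs : ∀ f, ∃ w, τ' w = 0 ∧ G' w = f) (hi : ∀ w, τ' w = 0 → G' w = 0 → w = 0) :
    Bijective (G'.prod τ') := by
  obtain ⟨u, hu⟩ : ∃ u, τ' u ≠ 0 := by
    by_contra h
    exact hτ (ContinuousLinearMap.ext fun u => by simpa using not_exists.1 h u)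
  constructor
  · rw [injective_iff_map_eq_zero]
    exact fun w hw => hi w (congrArg Prod.snd hw) (congrArg Prod.fst hw)
  · rintro ⟨f, t⟩
    obtain ⟨w, h1, h2⟩ := hs (f - (t / τ' u) • G' u)
    refine ⟨w + (t / τ' u) • u, ?_⟩
    rw [ContinuousLinearMap.prod_apply]
    simp only [map_add, map_smul, h1, h2, smul_eq_mul, Prod.mk.injEq, sub_add_cancel, zero_add,
      true_and]
    field_simp

/-- regular point with one-dimensional kernel: the zero set has a chart with values in `ℝ`. -/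
theorem chart_of_ker {G : E → F} {x : E} {G' : E →L[ℝ] F} (hG : HasStrictFDerivAt G G' x)
    (hs : Surjective G') (hk : Module.finrank ℝ (G' : E →ₗ[ℝ] F).ker = 1) {S : Set E} (hx : x ∈ S)
    (hS : ∀ᶠ y in 𝓝 x, y ∈ S ↔ G y = 0) :
    ∃ e : OpenPartialHomeomorph S ℝ, ⟨x, hx⟩ ∈ e.source := by
  obtain ⟨v, hv, -⟩ := finrank_eq_one_iff'.1 hk
  obtain ⟨τ', hτ⟩ := SeparatingDual.exists_ne_zero (R := ℝ) (x := v.1) fun h => hv (Subtype.ext h)
  obtain ⟨e, h, -⟩ := chart_of_bij hG τ'.hasStrictFDerivAt (bij_of_ker hs hk v.2 hτ) hx hS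
  exact ⟨e, h⟩

/-- regular point of index 0: isolated zero. -/
theorem isolated_of_bij {G : E → F} {x : E} {G' : E →L[ℝ] F} (hG : HasStrictFDerivAt G G' x)
    (hb : Bijective G') : ∀ᶠ y in 𝓝 x, G y = G x → y = x := by
  let L : E ≃L[ℝ] F := ContinuousLinearEquiv.ofBijective G'
    (LinearMap.ker_eq_bot.2 hb.1) (LinearMap.range_eq_top.2 hb.2)
  have hΦ : HasStrictFDerivAt G (L : E →L[ℝ] F) x := hG
  filter_upwards [(hΦ.toOpenPartialHomeomorph _).open_source.mem_nhds
    hΦ.mem_toOpenPartialHomeomorph_source] with y hy h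
  exact (hΦ.toOpenPartialHomeomorph _).injOn hy hΦ.mem_toOpenPartialHomeomorph_source h

end Banach

variable {X : Type*} [TopologicalSpace X]

/-- invariance of the boundary in dimension one. -/
theorem chart_zero_iff [T1Space X] {e e' : OpenPartialHomeomorph X ℝ≥0} {x : X}
    (hx : x ∈ e.source) (hx' : x ∈ e'.source) (h : e x = 0) : e' x = 0 := by
  classical
  by_contra hne
  let f : X → ZMod 2 := fun y => if e' x < e' y then 1 else 0
  have hlc : ∀ᶠ y in 𝓝[≠] x, LC f y := by
    filter_upwards [nhdsWithin_le_nhds (e'.open_source.mem_nhds hx'), self_mem_nhdsWithin]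
      with y a b
    have hne' : e' y ≠ e' x := fun hh => b (e'.injOn a hx' hh)
    rcases lt_or_gt_of_ne hne' with hl | hl
    · refine lc_of_eventually (c := 0) ?_
      filter_upwards [(e'.continuousAt a).eventually (gt_mem_nhds hl)] with z hz
      simp only [f, if_neg (not_lt.2 hz.le)]
    · refine lc_of_eventually (c := 1) ?_
      filter_upwards [(e'.continuousAt a).eventually (lt_mem_nhds hl)] with z hz
      simp only [f, if_pos hz]
  obtain ⟨a, b, -, -, hb⟩ := sides (lc_ne_chart e hx hlc)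
  have h1 : jmp (∅ : Set X) f x = 0 := by
    refine jmp_of_good ⟨b, fun hh => hh.elim, ?_⟩
    rw [← map_ne e hx, eventually_map, ← nhdsLT_sup_nhdsGT, eventually_sup]
    refine ⟨?_, hb⟩
    filter_upwards [self_mem_nhdsWithin] with s hs
    exact absurd (h ▸ hs) (not_lt.2 (zero_le (a := s)))
  have ht : ∀ᶠ s in 𝓝 (e' x), e' (e'.symm s) = s := e'.eventually_right_inverse' hx'
  rw [jmp_chart (B' := {0}) e' hx' (iff_of_false (notMem_empty x) hne),
    jmp_eq (a := 0) (b := 1) (fun _ => rfl)] at h1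
  · exact absurd h1 (by decide)
  · filter_upwards [nhdsWithin_le_nhds ht, self_mem_nhdsWithin] with s p q
    simp only [f, p, if_neg (not_lt.2 (le_of_lt (show s < e' x from q)))]
  · filter_upwards [nhdsWithin_le_nhds ht, self_mem_nhdsWithin] with s p q
    simp only [f, p, if_pos (show e' x < s from q)]

/-- charts known only at their centres: a half-line chart vanishing at each point of `B`, a line
chart at each other point. -/
theorem isCh_of_centre [T1Space X] {B : Set X}
    (h1 : ∀ x ∈ B, ∃ e : OpenPartialHomeomorph X ℝ≥0, x ∈ e.source ∧ e x = 0)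
    (h2 : ∀ x ∉ B, ∃ e : OpenPartialHomeomorph X ℝ, x ∈ e.source) (x : X) :
    ∃ e : OpenPartialHomeomorph X ℝ≥0, x ∈ e.source ∧ IsCh B e := by
  have h2' : ∀ x ∉ B, ∃ e : OpenPartialHomeomorph X ℝ≥0, x ∈ e.source ∧ e x ≠ 0 := fun x hx => by
    obtain ⟨e, he⟩ := h2 x hx
    obtain ⟨e', p, q⟩ := isCh_of_real (B := ∅) e (by simp)
    exact ⟨e', p ▸ he, fun h => (q x (p ▸ he)).2 h⟩
  have key : ∀ e : OpenPartialHomeomorph X ℝ≥0, IsCh B e := fun e y hy => by
    constructor
    · intro hB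
      obtain ⟨e', p, q⟩ := h1 y hB
      exact chart_zero_iff p hy q
    · intro h0
      by_contra hB
      obtain ⟨e', p, q⟩ := h2' y hB
      exact q (chart_zero_iff hy p h0)
  by_cases hx : x ∈ B
  · obtain ⟨e, p, -⟩ := h1 x hx
    exact ⟨e, p, key e⟩
  · obtain ⟨e, p, -⟩ := h2' x hx
    exact ⟨e, p, key e⟩

/-- boundary parity from charts at the centres. -/
theorem even_boundary' [T2Space X] [CompactSpace X] {B : Set X}
    (h1 : ∀ x ∈ B, ∃ e : OpenPartialHomeomorph X ℝ≥0, x ∈ e.source ∧ e x = 0)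
    (h2 : ∀ x ∉ B, ∃ e : OpenPartialHomeomorph X ℝ, x ∈ e.source) : B.Finite ∧ Even B.ncard :=
  even_boundary (isCh_of_centre h1 h2)

end Crest.Agent.X212.Par72
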