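import Mathlib

/-! Parity for topological 1-manifolds with boundary, without classification:
"Stokes mod 2" for `ZMod 2`-valued functions that are locally constant off a finite set. -/

namespace Crest.Agent.X212.Par72

open Set Filter Topology
open scoped NNReal

variable {X : Type*} [TopologicalSpace X]

/-- `f` is constant near `x`. -/
def LC (f : X → ZMod 2) (x : X) : Prop := ∀ᶠ y in 𝓝 x, f y = f x

/-- no jump of `f` at `x` (at a boundary point: `f` vanishes near `x`). -/
def Good (B : Set X) (f : X → ZMod 2) (x : X) : Prop :=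
  ∃ c, (x ∈ B → c = 0) ∧ ∀ᶠ y in 𝓝[≠] x, f y = c

open Classical in
/-- the jump of `f` at `x`. -/
noncomputable def jmp (B : Set X) (f : X → ZMod 2) (x : X) : ZMod 2 :=
  if Good B f x then 0 else 1

/-- locally constant (and zero on the boundary) off a finite set. -/
def Tame (B : Set X) (f : X → ZMod 2) : Prop :=
  {x | ¬ (LC f x ∧ (x ∈ B → f x = 0))}.Finite

/-- a half-line chart in which `B` is the preimage of `0`. -/
def IsCh (B : Set X) (e : OpenPartialHomeomorph X ℝ≥0) : Prop :=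
  ∀ y ∈ e.source, (y ∈ B ↔ e y = 0)

theorem jmp_of_good {B : Set X} {f : X → ZMod 2} {x : X} (h : Good B f x) : jmp B f x = 0 := by
  simp [jmp, h]

theorem jmp_of_not {B : Set X} {f : X → ZMod 2} {x : X} (h : ¬ Good B f x) : jmp B f x = 1 := by
  simp [jmp, h]

theorem jmp_of_lc {B : Set X} {f : X → ZMod 2} {x : X} (h : LC f x) (hb : x ∈ B → f x = 0) :
    jmp B f x = 0 :=
  jmp_of_good ⟨f x, hb, h.filter_mono nhdsWithin_le_nhds⟩

theorem jmp_of_zero {B : Set X} {f : X → ZMod 2} {x : X} (h : ∀ᶠ y in 𝓝[≠] x, f y = 0) :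
    jmp B f x = 0 :=
  jmp_of_good ⟨0, fun _ => rfl, h⟩

theorem jmp_congr {B : Set X} {f g : X → ZMod 2} {x : X} (h : ∀ᶠ y in 𝓝[≠] x, f y = g y) :
    jmp B f x = jmp B g x := by
  have : Good B f x ↔ Good B g x := by
    constructor
    · rintro ⟨c, h1, h2⟩
      exact ⟨c, h1, by filter_upwards [h, h2] with y a b; rw [← a, b]⟩
    · rintro ⟨c, h1, h2⟩
      exact ⟨c, h1, by filter_upwards [h, h2] with y a b; rw [a, b]⟩
  unfold jmp
  rw [this]

theorem LC.congr {f g : X → ZMod 2} {x : X} (h : LC f x) (hfg : ∀ᶠ y in 𝓝 x, f y = g y) :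
    LC g x := by
  have h0 : f x = g x := hfg.self_of_nhds
  filter_upwards [h, hfg] with y a b
  rw [← b, a, h0]

theorem lc_of_eventually {f : X → ZMod 2} {x : X} {c : ZMod 2} (h : ∀ᶠ y in 𝓝 x, f y = c) :
    LC f x := by
  have h0 : f x = c := h.self_of_nhds
  filter_upwards [h] with y a
  rw [a, h0]

theorem const_of_lc {f : X → ZMod 2} {s : Set X} (hs : IsPreconnected s)
    (h : ∀ x ∈ s, LC f x) {x y : X} (hx : x ∈ s) (hy : y ∈ s) : f x = f y := by
  refine hs.constant (f := f) (fun z hz => ?_) hx hy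
  exact (continuousAt_const.congr (f := fun _ => f z)
    ((h z hz).mono fun w hw => hw.symm)).continuousWithinAt

theorem Tame.support_finite {B : Set X} {f : X → ZMod 2} (h : Tame B f) :
    (Function.support (jmp B f)).Finite :=
  h.subset fun _ hx hc => hx (jmp_of_lc hc.1 hc.2)

theorem Tame.lc_ne [T1Space X] {B : Set X} {f : X → ZMod 2} (h : Tame B f) (x : X) :
    ∀ᶠ y in 𝓝[≠] x, LC f y := by
  have h1 : IsClosed ({x | ¬ (LC f x ∧ (x ∈ B → f x = 0))} \ {x}) := (h.subset sdiff_subset).isClosed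
  have h2 := h1.isOpen_compl.mem_nhds (x := x) (by simp)
  filter_upwards [nhdsWithin_le_nhds h2, self_mem_nhdsWithin] with y a b
  by_contra hc
  exact a ⟨fun hh => hc hh.1, b⟩

/-! ### the half-line -/

theorem sides {g : ℝ≥0 → ZMod 2} {t : ℝ≥0} (h : ∀ᶠ s in 𝓝[≠] t, LC g s) :
    ∃ a b, (t = 0 → a = 0) ∧ (∀ᶠ s in 𝓝[<] t, g s = a) ∧ ∀ᶠ s in 𝓝[>] t, g s = b := by
  rw [← nhdsLT_sup_nhdsGT, eventually_sup] at h
  obtain ⟨h1, h2⟩ := h
  obtain ⟨u, hu, hsub⟩ := mem_nhdsGT_iff_exists_Ioo_subset.1 h2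
  obtain ⟨p, hp⟩ : (Ioo t u).Nonempty := nonempty_Ioo.2 hu
  have hb : ∀ᶠ s in 𝓝[>] t, g s = g p := by
    filter_upwards [Ioo_mem_nhdsGT hu] with s hs
    exact const_of_lc isPreconnected_Ioo (fun z hz => hsub hz) hs hp
  rcases eq_or_ne t 0 with rfl | ht
  · refine ⟨0, g p, fun _ => rfl, ?_, hb⟩
    filter_upwards [self_mem_nhdsWithin] with s hs
    exact absurd hs (not_lt.2 (zero_le (a := s)))
  · have ht' : (0 : ℝ≥0) < t := pos_iff_ne_zero.2 ht
    obtain ⟨l, hl, hsub'⟩ := (mem_nhdsLT_iff_exists_Ioo_subset' ht').1 h1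
    obtain ⟨q, hq⟩ : (Ioo l t).Nonempty := nonempty_Ioo.2 hl
    refine ⟨g q, g p, fun h => absurd h ht, ?_, hb⟩
    filter_upwards [Ioo_mem_nhdsLT hl] with s hs
    exact const_of_lc isPreconnected_Ioo (fun z hz => hsub' hz) hs hq

theorem jmp_eq {g : ℝ≥0 → ZMod 2} {t : ℝ≥0} {a b : ZMod 2} (h0 : t = 0 → a = 0)
    (ha : ∀ᶠ s in 𝓝[<] t, g s = a) (hb : ∀ᶠ s in 𝓝[>] t, g s = b) :
    jmp {0} g t = a + b := by
  have key : ∀ a b : ZMod 2, a + b = 0 ↔ a = b := by decide
  by_cases hG : Good {0} g t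
  · rw [jmp_of_good hG]
    obtain ⟨c, h1, h2⟩ := hG
    rw [← nhdsLT_sup_nhdsGT, eventually_sup] at h2
    have hbc : b = c := by
      obtain ⟨s, p, q⟩ := (hb.and h2.2).exists
      rw [← p, q]
    rcases eq_or_ne t 0 with rfl | ht
    · rw [h0 rfl, hbc, h1 rfl, add_zero]
    · have ht' : (0 : ℝ≥0) < t := pos_iff_ne_zero.2 ht
      have : (𝓝[<] t).NeBot := nhdsLT_neBot_of_exists_lt ⟨0, ht'⟩
      obtain ⟨s, p, q⟩ := (ha.and h2.1).exists
      exact ((key a b).2 (by rw [← p, q, hbc])).symm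
  · rw [jmp_of_not hG]
    have hne : a ≠ b := by
      rintro rfl
      refine hG ⟨a, fun h => h0 h, ?_⟩
      rw [← nhdsLT_sup_nhdsGT, eventually_sup]
      exact ⟨ha, hb⟩
    have k2 : ∀ a b : ZMod 2, a ≠ b → 1 = a + b := by decide
    exact k2 a b hne

theorem line_aux (D : Finset ℝ≥0) : 0 ∉ D → ∀ (g : ℝ≥0 → ZMod 2) (c : ZMod 2),
    (∀ t, t ≠ 0 → t ∉ D → LC g t) → (∀ᶠ s in atTop, g s = c) →
    jmp {0} g 0 + ∑ t ∈ D, jmp {0} g t = c := by
  have tail : ∀ (g : ℝ≥0 → ZMod 2) (c : ZMod 2) (m : ℝ≥0), (∀ t, m < t → LC g t) →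
      (∀ᶠ s in atTop, g s = c) → ∀ᶠ s in 𝓝[>] m, g s = c := by
    intro g c m h hc
    obtain ⟨p, hp1, hp2⟩ := (hc.and (eventually_gt_atTop m)).exists
    filter_upwards [self_mem_nhdsWithin] with s hs
    rw [← hp1]
    exact const_of_lc isPreconnected_Ioi (fun z hz => h z hz) hs hp2
  induction D using Finset.induction_on_max with
  | empty =>
    intro _ g c h hc
    have := jmp_eq (g := g) (t := 0) (a := 0) (b := c) (fun _ => rfl)
      (by filter_upwards [self_mem_nhdsWithin] with s hs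
          exact absurd hs (not_lt.2 (zero_le (a := s))))
      (tail g c 0 (fun t ht => h t ht.ne' (by simp)) hc)
    simpa using this
  | insert m D hm ih =>
    intro h0 g c h hc
    have hm0 : m ≠ 0 := fun e => h0 (by simp [e])
    have hmp : (0 : ℝ≥0) < m := pos_iff_ne_zero.2 hm0
    have h0' : 0 ∉ D := fun e => h0 (Finset.mem_insert_of_mem e)
    have hmD : m ∉ D := fun e => lt_irrefl _ (hm m e)
    have hT : Tame ({0} : Set ℝ≥0) g := by
      refine (insert 0 (insert m D) : Finset ℝ≥0).finite_toSet.subset fun t ht => ?_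
      by_contra hc'
      have h1 : t ≠ 0 := fun e => hc' (by simp [e])
      have h2 : t ∉ insert m D := fun e => hc' (by simp only [Finset.coe_insert]; exact Or.inr (by simpa using e))
      exact ht ⟨h t h1 h2, fun e => absurd e h1⟩
    obtain ⟨a, b, -, ha, -⟩ := sides (hT.lc_ne m)
    have hb : ∀ᶠ s in 𝓝[>] m, g s = c := tail g c m (fun t ht => h t (hmp.trans ht).ne' (by
      simp only [Finset.mem_insert, not_or]
      exact ⟨ht.ne', fun e => lt_asymm ht (hm t e)⟩)) hc
    have hjm : jmp {0} g m = a + c := jmp_eq (fun e => absurd e hm0) ha hb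
    let g' : ℝ≥0 → ZMod 2 := fun s => if s < m then g s else a
    have hlt : ∀ t, t < m → ∀ᶠ s in 𝓝 t, g s = g' s := fun t ht => by
      filter_upwards [Iio_mem_nhds ht] with s hs
      simp only [g', if_pos (show s < m from hs)]
    have h' : ∀ t, t ≠ 0 → t ∉ D → LC g' t := by
      intro t ht htD
      rcases lt_trichotomy t m with hl | rfl | hl
      · exact (h t ht (by simp [hl.ne, htD])).congr (hlt t hl)
      · refine lc_of_eventually (c := a) ?_
        rw [← nhdsLT_sup_nhdsGE, eventually_sup]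
        constructor
        · filter_upwards [ha, self_mem_nhdsWithin] with s p q
          simp only [g', if_pos (show s < t from q), p]
        · filter_upwards [self_mem_nhdsWithin] with s q
          simp only [g', if_neg (not_lt.2 (show t ≤ s from q))]
      · refine lc_of_eventually (c := a) ?_
        filter_upwards [Ioi_mem_nhds hl] with s q
        simp only [g', if_neg (not_lt.2 (le_of_lt (show m < s from q)))]
    have hc' : ∀ᶠ s in atTop, g' s = a := by
      filter_upwards [eventually_ge_atTop m] with s q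
      simp only [g', if_neg (not_lt.2 q)]
    have H := ih h0' g' a h' hc'
    have e0 : jmp {0} g 0 = jmp {0} g' 0 := jmp_congr ((hlt 0 hmp).filter_mono nhdsWithin_le_nhds)
    have e1 : ∑ t ∈ D, jmp {0} g t = ∑ t ∈ D, jmp {0} g' t :=
      Finset.sum_congr rfl fun t ht => jmp_congr ((hlt t (hm t ht)).filter_mono nhdsWithin_le_nhds)
    rw [Finset.sum_insert hmD, hjm, e0, e1]
    have two : ∀ a c : ZMod 2, a + c + a = c := by decide
    calc _ = a + c + (jmp {0} g' 0 + ∑ t ∈ D, jmp {0} g' t) := by ring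
      _ = c := by rw [H, two]

theorem line {g : ℝ≥0 → ZMod 2} (hg : Tame {0} g) (hc : ∀ᶠ s in atTop, g s = 0) :
    ∑ᶠ t, jmp {0} g t = 0 := by
  classical
  let D : Finset ℝ≥0 := hg.toFinset.erase 0
  have h0 : 0 ∉ D := Finset.notMem_erase _ _
  have hD : ∀ t, t ≠ 0 → t ∉ D → LC g t := fun t ht h => by
    by_contra hc
    exact h (Finset.mem_erase.2 ⟨ht, hg.mem_toFinset.2 fun hh => hc hh.1⟩)
  rw [finsum_eq_sum_of_support_subset (s := insert 0 D), Finset.sum_insert h0]
  · exact line_aux D h0 g 0 hD hc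
  · intro t ht
    by_contra hc'
    have h1 : t ≠ 0 := fun e => hc' (by simp [e])
    have h2 : t ∉ D := fun e => hc' (by simp [e])
    exact ht (jmp_of_lc (hD t h1 h2) fun e => absurd e h1)

/-! ### charts -/

theorem map_ne {Y : Type*} [TopologicalSpace Y] (e : OpenPartialHomeomorph X Y) {x : X}
    (hx : x ∈ e.source) : map e.symm (𝓝[≠] (e x)) = 𝓝[≠] x := by
  have h : e.IsImage {x}ᶜ {e x}ᶜ := fun y hy => by
    simp only [mem_compl_iff, mem_singleton_iff]
    exact not_congr ⟨fun h => e.injOn hy hx h, fun h => by rw [h]⟩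
  have := h.symm.map_nhdsWithin_eq (e.map_source hx)
  rwa [e.left_inv hx] at this

theorem jmp_chart {Y : Type*} [TopologicalSpace Y] {B : Set X} {B' : Set Y}
    (e : OpenPartialHomeomorph X Y) {x : X} (hx : x ∈ e.source) (hB : x ∈ B ↔ e x ∈ B')
    (f : X → ZMod 2) : jmp B f x = jmp B' (fun t => f (e.symm t)) (e x) := by
  have : Good B f x ↔ Good B' (fun t => f (e.symm t)) (e x) := by
    unfold Good
    rw [← map_ne e hx, hB]
    simp only [eventually_map]
  unfold jmp
  rw [this]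

theorem lc_chart {Y : Type*} [TopologicalSpace Y] (e : OpenPartialHomeomorph X Y) {t : Y}
    (ht : t ∈ e.target) {f : X → ZMod 2} (h : LC f (e.symm t)) :
    LC (fun s => f (e.symm s)) t :=
  (e.continuousAt_symm ht).eventually h

theorem lc_ne_chart {Y : Type*} [TopologicalSpace Y] (e : OpenPartialHomeomorph X Y) {x : X}
    (hx : x ∈ e.source) {f : X → ZMod 2} (h : ∀ᶠ y in 𝓝[≠] x, LC f y) :
    ∀ᶠ s in 𝓝[≠] (e x), LC (fun s => f (e.symm s)) s := by
  rw [← map_ne e hx, eventually_map] at h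
  filter_upwards [h, nhdsWithin_le_nhds (e.open_target.mem_nhds (e.map_source hx))] with s a b
  exact lc_chart e b a

theorem jmp_add {B : Set X} {e : OpenPartialHomeomorph X ℝ≥0} (he : IsCh B e) {x : X}
    (hx : x ∈ e.source) {f g : X → ZMod 2} (hf : ∀ᶠ y in 𝓝[≠] x, LC f y)
    (hg : ∀ᶠ y in 𝓝[≠] x, LC g y) :
    jmp B (fun y => f y + g y) x = jmp B f x + jmp B g x := by
  have hB : x ∈ B ↔ e x ∈ ({0} : Set ℝ≥0) := he x hx
  obtain ⟨a, b, h0, ha, hb⟩ := sides (lc_ne_chart e hx hf)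
  obtain ⟨a', b', h0', ha', hb'⟩ := sides (lc_ne_chart e hx hg)
  rw [jmp_chart e hx hB, jmp_chart e hx hB f, jmp_chart e hx hB g, jmp_eq h0 ha hb,
    jmp_eq h0' ha' hb', jmp_eq (a := a + a') (b := b + b')]
  · ring
  · intro h; rw [h0 h, h0' h, add_zero]
  · filter_upwards [ha, ha'] with s p q; rw [p, q]
  · filter_upwards [hb, hb'] with s p q; rw [p, q]

theorem cell [T2Space X] {B : Set X} {e : OpenPartialHomeomorph X ℝ≥0} (he : IsCh B e)
    {C : Set ℝ≥0} (hC : IsCompact C) (hCt : C ⊆ e.target) {f : X → ZMod 2} (hf : Tame B f)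
    (hs : ∀ x, x ∉ e.symm '' C → f x = 0) : ∑ᶠ x, jmp B f x = 0 := by
  classical
  let g : ℝ≥0 → ZMod 2 := fun t => if t ∈ e.target then f (e.symm t) else 0
  have hN : IsCompact (e.symm '' C) := hC.image_of_continuousOn (e.continuousOn_symm.mono hCt)
  have hg0 : ∀ t, t ∉ C → g t = 0 := fun t ht => by
    by_cases h : t ∈ e.target
    · simp only [g, if_pos h]
      refine hs _ ?_
      rintro ⟨s, hsC, hst⟩
      exact ht (e.symm.injOn (hCt hsC) h hst ▸ hsC)
    · simp only [g, if_neg h]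
  have hgz : ∀ t, t ∉ C → ∀ᶠ s in 𝓝 t, g s = 0 := fun t ht => by
    filter_upwards [hC.isClosed.isOpen_compl.mem_nhds ht] with s h using hg0 s h
  have hge : ∀ t ∈ e.target, ∀ᶠ s in 𝓝 t, f (e.symm s) = g s := fun t ht => by
    filter_upwards [e.open_target.mem_nhds ht] with s h
    simp only [g, if_pos h]
  have hg : Tame {0} g := by
    refine ((hf.image e).insert 0).subset fun t ht => ?_
    by_contra hc
    have h1 : t ≠ 0 := fun h => hc (Or.inl h)
    refine ht ⟨?_, fun h => absurd h h1⟩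
    by_cases h : t ∈ e.target
    · refine (lc_chart e h ?_).congr (hge t h)
      by_contra hl
      exact hc (Or.inr ⟨e.symm t, fun hh => hl hh.1, e.right_inv h⟩)
    · exact lc_of_eventually (hgz t fun hh => h (hCt hh))
  have hinf : ∀ᶠ s in atTop, g s = 0 := by
    obtain ⟨M, hM⟩ := hC.bddAbove
    filter_upwards [eventually_gt_atTop M] with s h
    exact hg0 s fun hh => not_lt.2 (hM hh) h
  have e1 : ∑ᶠ x, jmp B f x = ∑ᶠ x ∈ e.source, jmp B f x := by
    rw [finsum_mem_def, indicator_eq_self.2]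
    intro x hx
    by_contra hc
    refine hx (jmp_of_zero (nhdsWithin_le_nhds ?_))
    have : x ∉ e.symm '' C := by
      rintro ⟨s, h1, rfl⟩
      exact hc (e.map_target (hCt h1))
    filter_upwards [hN.isClosed.isOpen_compl.mem_nhds this] with y hy using hs y hy
  have e2 : ∑ᶠ t, jmp {0} g t = ∑ᶠ t ∈ e.target, jmp {0} g t := by
    rw [finsum_mem_def, indicator_eq_self.2]
    intro t ht
    by_contra hc
    exact ht (jmp_of_zero (nhdsWithin_le_nhds (hgz t fun hh => hc (hCt hh))))
  rw [e1, ← line hg hinf, e2]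
  refine finsum_mem_eq_of_bijOn e e.bijOn fun x hx => ?_
  rw [jmp_chart (B' := {0}) e hx (he x hx)]
  exact jmp_congr ((hge _ (e.map_source hx)).filter_mono nhdsWithin_le_nhds)

/-- a compact arc with finite frontier inside a chart. -/
def IsCell (B : Set X) (N : Set X) : Prop :=
  ∃ (e : OpenPartialHomeomorph X ℝ≥0) (C : Set ℝ≥0), IsCh B e ∧ IsCompact C ∧ C ⊆ e.target ∧
    N = e.symm '' C ∧ (frontier N).Finite

theorem IsCell.isClosed [T2Space X] {B N : Set X} (h : IsCell B N) : IsClosed N := by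
  obtain ⟨e, C, -, hC, hCt, rfl, -⟩ := h
  exact (hC.image_of_continuousOn (e.continuousOn_symm.mono hCt)).isClosed

theorem exists_cell [T2Space X] {B : Set X} {e : OpenPartialHomeomorph X ℝ≥0} (he : IsCh B e)
    {x : X} (hx : x ∈ e.source) : ∃ N, IsCell B N ∧ N ∈ 𝓝 x := by
  obtain ⟨a, b, -, hn, hsub⟩ :=
    exists_Icc_mem_subset_of_mem_nhds (e.open_target.mem_nhds (e.map_source hx))
  have hN : IsClosed (e.symm '' Icc a b) :=
    (isCompact_Icc.image_of_continuousOn (e.continuousOn_symm.mono hsub)).isClosed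
  refine ⟨e.symm '' Icc a b, ⟨e, Icc a b, he, isCompact_Icc, hsub, rfl, ?_⟩, ?_⟩
  · refine (toFinite ({e.symm a, e.symm b} : Set X)).subset fun y hy => ?_
    rw [hN.frontier_eq] at hy
    obtain ⟨⟨t, ht, rfl⟩, hy2⟩ := hy
    by_contra hc
    have h1 : t ≠ a := fun h => hc (Or.inl (by rw [h]))
    have h2 : t ≠ b := fun h => hc (Or.inr (by rw [h]; rfl))
    exact hy2 (mem_interior_iff_mem_nhds.2 (e.symm.image_mem_nhds (hsub ht)
      (Icc_mem_nhds (lt_of_le_of_ne ht.1 h1.symm) (lt_of_le_of_ne ht.2 h2))))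
  · rw [← e.symm_map_nhds_eq hx]
    exact image_mem_map hn

theorem lc_ite {N : Set X} {x : X} (hx : x ∉ frontier N) :
    (∀ᶠ y in 𝓝 x, y ∈ N) ∨ ∀ᶠ y in 𝓝 x, y ∉ N := by
  by_cases h : x ∈ closure N
  · left
    have : x ∈ interior N := by
      by_contra hc
      exact hx ⟨h, hc⟩
    exact mem_interior_iff_mem_nhds.1 this
  · right
    filter_upwards [isClosed_closure.isOpen_compl.mem_nhds h] with y hy hc
    exact hy (subset_closure hc)

theorem Tame.indicator {B N : Set X} {f : X → ZMod 2} (hf : Tame B f)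
    (hN : (frontier N).Finite) : Tame B (N.indicator f) := by
  refine (hf.union hN).subset fun x hx => ?_
  by_contra hc
  simp only [mem_union, mem_ofPred_eq, not_or, not_not] at hc
  obtain ⟨⟨h1, h2⟩, h3⟩ := hc
  refine hx ⟨?_, fun h => ?_⟩
  · rcases lc_ite h3 with h | h
    · exact h1.congr (h.mono fun y hy => (indicator_of_mem hy f).symm)
    · exact lc_of_eventually (h.mono fun y hy => indicator_of_notMem hy f)
  · by_cases h' : x ∈ N
    · rw [indicator_of_mem h', h2 h]
    · rw [indicator_of_notMem h']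

theorem cells [T2Space X] {B : Set X} (S : Finset (Set X)) : (∀ N ∈ S, IsCell B N) →
    ∀ f : X → ZMod 2, Tame B f → (∀ x, (∀ N ∈ S, x ∉ N) → f x = 0) → ∑ᶠ x, jmp B f x = 0 := by
  classical
  induction S using Finset.induction_on with
  | empty =>
    intro _ f _ h
    exact finsum_eq_zero_of_forall_eq_zero fun x =>
      jmp_of_zero (Eventually.of_forall fun y => h y (by simp))
  | insert N S _ ih =>
    intro hS f hf h
    have hNc := hS N (Finset.mem_insert_self _ _)
    obtain ⟨e, C, he, hC, hCt, hN, hfr⟩ := hNc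
    have h1 : Tame B (N.indicator f) := hf.indicator hfr
    have h2 : Tame B (Nᶜ.indicator f) := hf.indicator (by rwa [frontier_compl])
    have k1 : ∑ᶠ x, jmp B (N.indicator f) x = 0 :=
      cell he hC hCt h1 fun x hx => indicator_of_notMem (hN ▸ hx) f
    have k2 : ∑ᶠ x, jmp B (Nᶜ.indicator f) x = 0 := by
      refine ih (fun M hM => hS M (Finset.mem_insert_of_mem hM)) _ h2 fun x hx => ?_
      by_cases h' : x ∈ N
      · exact indicator_of_notMem (s := Nᶜ) (fun hh => hh h') f
      · rw [indicator_of_mem (show x ∈ Nᶜ from h')]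
        refine h x fun M hM => ?_
        rcases Finset.mem_insert.1 hM with rfl | hM
        · exact h'
        · exact hx M hM
    have hsum : ∀ y, f y = N.indicator f y + Nᶜ.indicator f y := fun y =>
      (congrFun (indicator_self_add_compl N f) y).symm
    have k3 : ∀ x, jmp B f x = jmp B (N.indicator f) x + jmp B (Nᶜ.indicator f) x := by
      intro x
      by_cases hx : ∃ M ∈ insert N S, x ∈ M
      · obtain ⟨M, hM, hxM⟩ := hx
        obtain ⟨e', C', he', -, hCt', rfl, -⟩ := hS M hM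
        obtain ⟨t, ht, rfl⟩ := hxM
        rw [← jmp_add he' (e'.map_target (hCt' ht)) (h1.lc_ne _) (h2.lc_ne _)]
        exact jmp_congr (Eventually.of_forall hsum)
      · have hz : ∀ᶠ y in 𝓝 x, f y = 0 := by
          have : ∀ᶠ y in 𝓝 x, ∀ M ∈ insert N S, y ∉ M :=
            (Finset.eventually_all _).2 fun M hM =>
              (hS M hM).isClosed.isOpen_compl.mem_nhds fun hh => hx ⟨M, hM, hh⟩
          exact this.mono fun y hy => h y hy
        have hz' := hz.filter_mono (nhdsWithin_le_nhds (s := {x}ᶜ))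
        rw [jmp_of_zero hz', jmp_of_zero, jmp_of_zero, add_zero]
        · exact hz'.mono fun y hy => indicator_apply_eq_zero.2 fun _ => hy
        · exact hz'.mono fun y hy => indicator_apply_eq_zero.2 fun _ => hy
    rw [finsum_congr k3, finsum_add_distrib h1.support_finite h2.support_finite, k1, k2, add_zero]

/-- **Stokes mod 2.**  The jumps of a tame function with compact support add up to zero. -/
theorem stokes [T2Space X] {B K : Set X} (hK : IsCompact K)
    (hch : ∀ x ∈ K, ∃ e : OpenPartialHomeomorph X ℝ≥0, x ∈ e.source ∧ IsCh B e)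
    {f : X → ZMod 2} (hf : Tame B f) (h0 : ∀ x, x ∉ K → f x = 0) : ∑ᶠ x, jmp B f x = 0 := by
  classical
  have : ∀ x ∈ K, ∃ N, IsCell B N ∧ N ∈ 𝓝 x := fun x hx => by
    obtain ⟨e, h1, h2⟩ := hch x hx
    exact exists_cell h2 h1
  choose! N hN1 hN2 using this
  obtain ⟨t, ht, hcov⟩ := hK.elim_nhds_subcover N hN2
  refine cells (t.image N) (fun M hM => ?_) f hf fun x hx => h0 x fun hxK => ?_
  · obtain ⟨x, hx, rfl⟩ := Finset.mem_image.1 hM
    exact hN1 x (ht x hx)
  · obtain ⟨y, hy, hxy⟩ := mem_iUnion₂.1 (hcov hxK)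
    exact hx _ (Finset.mem_image_of_mem N hy) hxy

end Crest.Agent.X212.Par72
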