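import Crest.Agent.X212.Par72.Core

/-! Parity theorems for 1-manifolds: boundary points, one-sided frontier points, facets of a
family with corners, ends (collars). -/

namespace Crest.Agent.X212.Par72

open Set Filter Topology
open scoped NNReal

variable {X : Type*} [TopologicalSpace X]

theorem finite_of_isolated {K S : Set X} (hK : IsCompact K)
    (h : ∀ x ∈ K, ∃ p, ∀ᶠ y in 𝓝 x, y ∈ S → y = p) : (S ∩ K).Finite := by
  choose! p hp using h
  obtain ⟨t, -, hcov⟩ := hK.elim_nhds_subcover (fun x => {y | y ∈ S → y = p x}) hp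
  refine (t.finite_toSet.image p).subset fun y hy => ?_
  obtain ⟨x, hx, hxy⟩ := mem_iUnion₂.1 (hcov hy.2)
  exact ⟨x, hx, (hxy hy.1).symm⟩

theorem IsCh.finite {B K : Set X} (hK : IsCompact K)
    (hch : ∀ x ∈ K, ∃ e : OpenPartialHomeomorph X ℝ≥0, x ∈ e.source ∧ IsCh B e) :
    (B ∩ K).Finite := by
  refine finite_of_isolated hK fun x hx => ?_
  obtain ⟨e, h1, h2⟩ := hch x hx
  refine ⟨e.symm 0, ?_⟩
  filter_upwards [e.open_source.mem_nhds h1] with y hy hB
  rw [← (h2 y hy).1 hB, e.left_inv hy]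

theorem neBot_of_chart {Y : Type*} [TopologicalSpace Y] (e : OpenPartialHomeomorph X Y) {x : X}
    (hx : x ∈ e.source) [(𝓝[≠] (e x)).NeBot] : (𝓝[≠] x).NeBot := by
  rw [← map_ne e hx]; infer_instance

/-- **General parity theorem.** `K` compact in a 1-manifold with boundary `B`, frontier of `K`
inside a finite set `D` of interior points at which `K` is one-sided. -/
theorem even_general [T2Space X] {B K D : Set X} (hK : IsCompact K)
    (hch : ∀ x ∈ K, ∃ e : OpenPartialHomeomorph X ℝ≥0, x ∈ e.source ∧ IsCh B e)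
    (hD : D.Finite) (hfr : frontier K ⊆ D) (hDB : Disjoint D B)
    (h1 : ∀ x ∈ D, ∃ᶠ y in 𝓝[≠] x, y ∈ K) (h2 : ∀ x ∈ D, ∃ᶠ y in 𝓝[≠] x, y ∉ K) :
    (B ∩ K).Finite ∧ Even (D.ncard + (B ∩ K).ncard) := by
  classical
  have hB := IsCh.finite hK hch
  refine ⟨hB, ?_⟩
  let f : X → ZMod 2 := K.indicator fun _ => 1
  have hlc : ∀ x, x ∉ D → LC f x := fun x hx => by
    rcases lc_ite (fun h => hx (hfr h)) with h | h
    · exact lc_of_eventually (h.mono fun y hy => indicator_of_mem hy _)
    · exact lc_of_eventually (h.mono fun y hy => indicator_of_notMem hy _)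
  have hout : ∀ x, x ∉ D ∪ B ∩ K → LC f x ∧ (x ∈ B → f x = 0) := fun x hx =>
    ⟨hlc x fun h => hx (Or.inl h), fun h => indicator_of_notMem (fun h' => hx (Or.inr ⟨h, h'⟩)) _⟩
  have hfin : (D ∪ B ∩ K).Finite := hD.union hB
  have hf : Tame B f := hfin.subset fun x hx => by
    by_contra hc
    exact hx (hout x hc)
  have H := stokes hK hch hf fun x hx => indicator_of_notMem hx _
  have hin : ∀ x ∈ D ∪ B ∩ K, jmp B f x = 1 := by
    intro x hx
    refine jmp_of_not ?_
    rintro ⟨c, hc0, hc⟩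
    rcases hx with hx | hx
    · obtain ⟨y, p, q⟩ := ((h1 x hx).and_eventually hc).exists
      obtain ⟨z, p', q'⟩ := ((h2 x hx).and_eventually hc).exists
      have a1 : f y = 1 := indicator_of_mem p _
      have a2 : f z = 0 := indicator_of_notMem p' _
      exact absurd (a1.symm.trans (q.trans (q'.symm.trans a2))) (by decide)
    · obtain ⟨e, he1, -⟩ := hch x hx.2
      have := neBot_of_chart e he1
      have hl := hlc x fun h => disjoint_left.1 hDB h hx.1
      obtain ⟨y, p, q⟩ := (hc.and (hl.filter_mono nhdsWithin_le_nhds)).exists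
      have a1 : f x = 1 := indicator_of_mem hx.2 _
      exact absurd (a1.symm.trans (q.symm.trans (p.trans (hc0 hx.1)))) (by decide)
  rw [finsum_eq_sum_of_support_subset (s := hfin.toFinset), Finset.sum_congr rfl
    (fun x hx => hin x (hfin.mem_toFinset.1 hx))] at H
  · rw [← ncard_union_eq (hDB.mono_right inter_subset_left) hD hB,
      ncard_eq_toFinset_card _ hfin, ← ZMod.natCast_eq_zero_iff_even]
    simpa using H
  · intro x hx
    by_contra hc
    have := hout x fun h => hc (by simpa using h)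
    exact hx (jmp_of_lc this.1 this.2)

/-- a compact 1-manifold with boundary has an even number of boundary points. -/
theorem even_boundary [T2Space X] [CompactSpace X] {B : Set X}
    (hch : ∀ x, ∃ e : OpenPartialHomeomorph X ℝ≥0, x ∈ e.source ∧ IsCh B e) :
    B.Finite ∧ Even B.ncard := by
  simpa using even_general (B := B) (K := univ) (D := ∅) isCompact_univ (fun x _ => hch x)
    finite_empty (by simp) (by simp) (by simp) (by simp)

/-! ### charts with values in `ℝ` -/

theorem isOpenEmbedding_expN : IsOpenEmbedding fun t : ℝ => (⟨Real.exp t, (Real.exp_pos t).le⟩ : ℝ≥0) := by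
  refine IsOpenEmbedding.of_isEmbedding_isOpenMap
    (IsEmbedding.of_comp (g := ((↑) : ℝ≥0 → ℝ)) (by fun_prop) NNReal.continuous_coe
      Real.isOpenEmbedding_exp.isEmbedding) fun s hs => ?_
  have := (Real.isOpenEmbedding_exp.isOpenMap s hs).preimage NNReal.continuous_coe
  have e : (fun t : ℝ => (⟨Real.exp t, (Real.exp_pos t).le⟩ : ℝ≥0)) '' s
      = ((↑) : ℝ≥0 → ℝ) ⁻¹' (Real.exp '' s) := by
    ext u
    constructor
    · rintro ⟨t, ht, rfl⟩
      exact ⟨t, ht, rfl⟩
    · rintro ⟨t, ht, h⟩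
      exact ⟨t, ht, NNReal.eq h⟩
  rw [e]
  exact this

/-- a chart with values in `ℝ` that avoids `B` gives a half-line chart. -/
theorem isCh_of_real {B : Set X} (e : OpenPartialHomeomorph X ℝ) (hB : Disjoint e.source B) :
    ∃ e' : OpenPartialHomeomorph X ℝ≥0, e'.source = e.source ∧ IsCh B e' := by
  refine ⟨e.trans (isOpenEmbedding_expN.toOpenPartialHomeomorph _), by simp, fun y hy => ?_⟩
  have hy' : y ∈ e.source := by simpa using hy
  refine iff_of_false (disjoint_left.1 hB hy') fun h => ?_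
  exact (Real.exp_pos (e y)).ne' (congrArg NNReal.toReal h)

/-- boundaryless version: `K` compact, one-sided at the points of a finite set `D` containing
its frontier. -/
theorem even_frontier [T2Space X] {K D : Set X} (hK : IsCompact K)
    (hch : ∀ x ∈ K, ∃ e : OpenPartialHomeomorph X ℝ, x ∈ e.source)
    (hD : D.Finite) (hfr : frontier K ⊆ D)
    (h1 : ∀ x ∈ D, ∃ᶠ y in 𝓝[≠] x, y ∈ K) (h2 : ∀ x ∈ D, ∃ᶠ y in 𝓝[≠] x, y ∉ K) :
    Even D.ncard := by
  have := (even_general (B := ∅) hK (fun x hx => by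
    obtain ⟨e, he⟩ := hch x hx
    obtain ⟨e', p, q⟩ := isCh_of_real (B := ∅) e (by simp)
    exact ⟨e', p ▸ he, q⟩) hD hfr (by simp) h1 h2).2
  simpa using this

/-- `τ` is a local coordinate of `X` at `x` (a transverse level). -/
def Tr (τ : X → ℝ) (x : X) : Prop :=
  ∃ e : OpenPartialHomeomorph X ℝ, x ∈ e.source ∧ ∀ᶠ y in 𝓝 x, τ y = e y

theorem Tr.eventually_ne {τ : X → ℝ} {x : X} (h : Tr τ x) : ∀ᶠ y in 𝓝 x, τ y = τ x → y = x := by
  obtain ⟨e, hx, h⟩ := h
  have h0 := h.self_of_nhds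
  filter_upwards [h, e.open_source.mem_nhds hx] with y a b c
  exact e.injOn b hx (by rw [← a, c, h0])

theorem Tr.frequently {τ : X → ℝ} {x : X} (h : Tr τ x) {s : Set ℝ}
    (hs : ∃ᶠ t in 𝓝[≠] (τ x), t ∈ s) : ∃ᶠ y in 𝓝[≠] x, τ y ∈ s := by
  obtain ⟨e, hx, h⟩ := h
  have h0 := h.self_of_nhds
  have hm := map_ne e.symm (e.map_source hx)
  rw [e.left_inv hx, e.symm_symm] at hm
  rw [h0, ← hm, frequently_map] at hs
  exact (hs.and_eventually (h.filter_mono nhdsWithin_le_nhds)).mono fun y hy => hy.2 ▸ hy.1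

theorem Tr.freq_gt {τ : X → ℝ} {x : X} (h : Tr τ x) : ∃ᶠ y in 𝓝[≠] x, τ x < τ y :=
  h.frequently (s := Ioi (τ x)) ((Eventually.frequently (f := 𝓝[>] (τ x))
    self_mem_nhdsWithin).filter_mono (nhdsGT_le_nhdsNE _))

theorem Tr.freq_lt {τ : X → ℝ} {x : X} (h : Tr τ x) : ∃ᶠ y in 𝓝[≠] x, τ y < τ x :=
  h.frequently (s := Iio (τ x)) ((Eventually.frequently (f := 𝓝[<] (τ x))
    self_mem_nhdsWithin).filter_mono (nhdsLT_le_nhdsNE _))

theorem Tr.congr {τ σ : X → ℝ} {x : X} (h : Tr τ x) (h' : ∀ᶠ y in 𝓝 x, σ y = τ y) : Tr σ x := by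
  obtain ⟨e, hx, h⟩ := h
  exact ⟨e, hx, by filter_upwards [h, h'] with y a b; rw [b, a]⟩

/-- an affine change of a local coordinate. -/
theorem Tr.affine {τ : X → ℝ} {x : X} (h : Tr τ x) {a : ℝ} (ha : a ≠ 0) (b : ℝ) :
    Tr (fun y => a * τ y + b) x := by
  obtain ⟨e, hx, h⟩ := h
  refine ⟨e.trans ((Homeomorph.mulLeft₀ a ha).trans (Homeomorph.addRight b)).toOpenPartialHomeomorph,
    by simpa using hx, h.mono fun y hy => ?_⟩
  simp [hy]

/-- transport of a local coordinate along a local homeomorphism. -/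
theorem Tr.comp {Y : Type*} [TopologicalSpace Y] {τ : Y → ℝ} (ψ : OpenPartialHomeomorph X Y) {x : X}
    (hx : x ∈ ψ.source) (h : Tr τ (ψ x)) : Tr (fun y => τ (ψ y)) x := by
  obtain ⟨e, hx', h⟩ := h
  exact ⟨ψ.trans e, ⟨hx, hx'⟩, (ψ.continuousAt hx).eventually h⟩

/-- **Facets.**  `K = {∀ i, 0 ≤ τ i}` compact in a 1-manifold, no point of `K` on two facets,
facets transverse: the facet sets are finite and their total number of points is even. -/
theorem even_facets [T2Space X] {ι : Type*} [Fintype ι] (τ : ι → X → ℝ)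
    (hK : IsCompact {x | ∀ i, 0 ≤ τ i x})
    (hc : ∀ x, (∀ i, 0 ≤ τ i x) → ∀ i, ContinuousAt (τ i) x)
    (hch : ∀ x, (∀ i, 0 < τ i x) → ∃ e : OpenPartialHomeomorph X ℝ, x ∈ e.source)
    (hcor : ∀ x, (∀ i, 0 ≤ τ i x) → ∀ i j, τ i x = 0 → τ j x = 0 → i = j)
    (htr : ∀ x, (∀ i, 0 ≤ τ i x) → ∀ i, τ i x = 0 → Tr (τ i) x) :
    (∀ i, {x | (∀ j, 0 ≤ τ j x) ∧ τ i x = 0}.Finite) ∧
      Even (∑ i, {x | (∀ j, 0 ≤ τ j x) ∧ τ i x = 0}.ncard) := by
  classical
  set K := {x | ∀ i, 0 ≤ τ i x} with hKd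
  have hfin : ∀ i, {x | (∀ j, 0 ≤ τ j x) ∧ τ i x = 0}.Finite := fun i => by
    refine (finite_of_isolated (S := {x | τ i x = 0}) hK fun x hx => ⟨x, ?_⟩).subset
      fun x hx => ⟨hx.2, hx.1⟩
    by_cases h : τ i x = 0
    · exact (htr x hx i h).eventually_ne.mono fun y hy hy' => hy (by rw [h]; exact hy')
    · exact ((hc x hx i).eventually_ne h).mono fun y hy hy' => absurd hy' hy
  refine ⟨hfin, ?_⟩
  let D : Set X := ⋃ i, {x | (∀ j, 0 ≤ τ j x) ∧ τ i x = 0}
  have hD : D.Finite := finite_iUnion hfin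
  have hpos : ∀ x ∈ K, x ∉ D → ∀ i, 0 < τ i x := fun x hx h i =>
    lt_of_le_of_ne (hx i) fun e => h (mem_iUnion.2 ⟨i, hx, e.symm⟩)
  have hev : Even D.ncard := by
    refine even_frontier hK (fun x hx => ?_) hD (fun x hx => ?_) (fun x hx => ?_) (fun x hx => ?_)
    · by_cases h : x ∈ D
      · obtain ⟨i, h1, h2⟩ := mem_iUnion.1 h
        obtain ⟨e, he, -⟩ := htr x h1 i h2
        exact ⟨e, he⟩
      · exact hch x (hpos x hx h)
    · rw [hK.isClosed.frontier_eq] at hx
      by_contra h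
      refine hx.2 (mem_interior_iff_mem_nhds.2 ?_)
      have : ∀ᶠ y in 𝓝 x, ∀ i, 0 < τ i y :=
        eventually_all.2 fun i => (hc x hx.1 i).eventually (lt_mem_nhds (hpos x hx.1 h i))
      exact this.mono fun y hy i => (hy i).le
    · obtain ⟨i, h1, h2⟩ := mem_iUnion.1 hx
      have : ∀ᶠ y in 𝓝 x, ∀ j, j ≠ i → 0 < τ j y := eventually_all.2 fun j => by
        by_cases hj : j = i
        · exact Eventually.of_forall fun _ h => absurd hj h
        · have : 0 < τ j x := lt_of_le_of_ne (h1 j) fun e => hj (hcor x h1 j i e.symm h2)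
          exact ((hc x h1 j).eventually (lt_mem_nhds this)).mono fun y hy _ => hy
      refine ((htr x h1 i h2).freq_gt.and_eventually (this.filter_mono nhdsWithin_le_nhds)).mono
        fun y hy j => ?_
      by_cases hj : j = i
      · rw [hj, ← h2]; exact hy.1.le
      · exact (hy.2 j hj).le
    · obtain ⟨i, h1, h2⟩ := mem_iUnion.1 hx
      exact (htr x h1 i h2).freq_lt.mono fun y hy hyK => not_lt.2 (hyK i) (h2 ▸ hy)
  have hcard : D.ncard = ∑ i, {x | (∀ j, 0 ≤ τ j x) ∧ τ i x = 0}.ncard := by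
    rw [ncard_iUnion_of_finite hfin, finsum_eq_sum_of_fintype]
    intro i j hij
    exact disjoint_left.2 fun x h1 h2 => hij (hcor x h1.1 i j h1.2 h2.2)
  exact hcard ▸ hev

/-- **Cobordism invariance of a mod 2 count** along one parameter `t`. -/
theorem fibre_modEq [T2Space X] (t : X → ℝ) {a b : ℝ} (hab : a < b)
    (hK : IsCompact (t ⁻¹' Icc a b)) (hc : ∀ x, t x ∈ Icc a b → ContinuousAt t x)
    (hch : ∀ x, t x ∈ Ioo a b → ∃ e : OpenPartialHomeomorph X ℝ, x ∈ e.source)
    (htr : ∀ x, t x = a ∨ t x = b → Tr t x) :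
    (t ⁻¹' {a}).Finite ∧ (t ⁻¹' {b}).Finite ∧ (t ⁻¹' {a}).ncard ≡ (t ⁻¹' {b}).ncard [MOD 2] := by
  let τ : Bool → X → ℝ := fun i x => if i then 1 * t x + -a else -1 * t x + b
  have hiff : ∀ x, (∀ i, 0 ≤ τ i x) ↔ t x ∈ Icc a b := fun x => by
    simp only [τ, Bool.forall_bool, mem_Icc, if_true, Bool.false_eq_true, if_false]
    constructor <;> rintro ⟨p, q⟩ <;> constructor <;> linarith
  have H := even_facets τ (by simp only [hiff]; exact hK)
    (fun x hx i => by
      have := hc x ((hiff x).1 hx)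
      cases i <;> simp only [τ, if_true, Bool.false_eq_true, if_false] <;> fun_prop)
    (fun x hx => hch x (by
      have p := hx true
      have q := hx false
      simp only [τ, if_true, Bool.false_eq_true, if_false] at p q
      constructor <;> linarith))
    (fun x _ i j => by
      cases i <;> cases j <;> simp only [τ, if_true, Bool.false_eq_true, if_false] <;>
        intro p q <;> first | trivial | (exfalso; linarith))
    (fun x _ i h => by
      cases i <;> simp only [τ, if_true, Bool.false_eq_true, if_false] at h ⊢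
      · exact (htr x (Or.inr (by linarith))).affine (by norm_num) _
      · exact (htr x (Or.inl (by linarith))).affine one_ne_zero _)
  have e1 : {x | (∀ j, 0 ≤ τ j x) ∧ τ true x = 0} = t ⁻¹' {a} := by
    ext x
    simp only [mem_ofPred_eq, hiff, τ, if_true, mem_preimage, mem_singleton_iff, mem_Icc]
    constructor
    · rintro ⟨-, h⟩; linarith
    · intro h; exact ⟨⟨by linarith, by linarith⟩, by linarith⟩
  have e2 : {x | (∀ j, 0 ≤ τ j x) ∧ τ false x = 0} = t ⁻¹' {b} := by
    ext x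
    simp only [mem_ofPred_eq, hiff, τ, Bool.false_eq_true, if_false, mem_preimage,
      mem_singleton_iff, mem_Icc]
    constructor
    · rintro ⟨-, h⟩; linarith
    · intro h; exact ⟨⟨by linarith, by linarith⟩, by linarith⟩
  obtain ⟨H1, H2⟩ := H
  rw [Fintype.sum_bool, e1, e2] at H2
  refine ⟨e1 ▸ H1 true, e2 ▸ H1 false, ?_⟩
  obtain ⟨k, hk⟩ := H2
  unfold Nat.ModEq
  omega

/-- **Ends.**  A 1-manifold with boundary `B` and finitely many proper ends `c i ⁻¹ [T i, ∞)` whose
complement is compact: `#ends + #B` is even. -/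
theorem even_ends [T2Space X] {B : Set X} {ι : Type*} [Finite ι]
    (hch : ∀ x, ∃ e : OpenPartialHomeomorph X ℝ≥0, x ∈ e.source ∧ IsCh B e)
    (c : ι → OpenPartialHomeomorph X ℝ) (T : ι → ℝ) (hT : ∀ i, Ici (T i) ⊆ (c i).target)
    (hB : ∀ i, Disjoint (c i).source B)
    (hdis : Pairwise fun i j => Disjoint (c i).source (c j).source)
    (hcl : ∀ i, IsClosed ((c i).symm '' Ici (T i)))
    (hK : IsCompact (⋃ i, (c i).symm '' Ioi (T i))ᶜ) :
    B.Finite ∧ Even (Nat.card ι + B.ncard) := by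
  set K := (⋃ i, (c i).symm '' Ioi (T i))ᶜ with hKd
  let p : ι → X := fun i => (c i).symm (T i)
  have hp : ∀ i, p i ∈ (c i).source := fun i => (c i).map_target (hT i self_mem_Ici)
  have hpc : ∀ i, c i (p i) = T i := fun i => (c i).right_inv (hT i self_mem_Ici)
  have hinj : Function.Injective p := fun i j h => by
    by_contra hc
    exact disjoint_left.1 (hdis hc) (hp i) (h ▸ hp j)
  have hBK : B ∩ K = B := inter_eq_left.2 fun x hx hc => by
    obtain ⟨i, s, hs, rfl⟩ := mem_iUnion.1 hc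
    exact disjoint_left.1 (hB i) ((c i).map_target (hT i (Ioi_subset_Ici_self hs))) hx
  have htr : ∀ i, Tr (c i) (p i) := fun i => ⟨c i, hp i, Eventually.of_forall fun _ => rfl⟩
  have H := even_general (B := B) (D := range p) hK (fun x _ => hch x) (finite_range p)
    (fun x hx => by
      have h1 : x ∈ K := hK.isClosed.frontier_subset hx
      rw [hKd, frontier_compl] at hx
      have h2 : closure (⋃ i, (c i).symm '' Ioi (T i)) ⊆ ⋃ i, (c i).symm '' Ici (T i) :=
        closure_minimal (iUnion_mono fun i => image_mono Ioi_subset_Ici_self)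
          (isClosed_iUnion_of_finite hcl)
      obtain ⟨i, s, hs, rfl⟩ := mem_iUnion.1 (h2 hx.1)
      rcases eq_or_lt_of_le (show T i ≤ s from hs) with rfl | h
      · exact ⟨i, rfl⟩
      · exact (h1 (mem_iUnion.2 ⟨i, s, h, rfl⟩)).elim)
    (disjoint_left.2 (by rintro _ ⟨i, rfl⟩; exact disjoint_left.1 (hB i) (hp i)))
    (by
      rintro _ ⟨i, rfl⟩
      refine ((htr i).freq_lt.and_eventually (nhdsWithin_le_nhds
        ((c i).open_source.mem_nhds (hp i)))).mono fun y hy hc => ?_
      obtain ⟨j, s, hs, rfl⟩ := mem_iUnion.1 hc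
      have hsj : s ∈ (c j).target := hT j (Ioi_subset_Ici_self hs)
      by_cases hij : i = j
      · subst hij
        have := hy.1
        rw [(c i).right_inv hsj, hpc] at this
        exact lt_asymm this hs
      · exact disjoint_left.1 (hdis hij) hy.2 ((c j).map_target hsj))
    (by
      rintro _ ⟨i, rfl⟩
      refine ((htr i).freq_gt.and_eventually (nhdsWithin_le_nhds
        ((c i).open_source.mem_nhds (hp i)))).mono fun y hy hc => ?_
      exact hc (mem_iUnion.2 ⟨i, c i y, hpc i ▸ hy.1, (c i).left_inv hy.2⟩))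
  rw [hBK, ncard_range_of_injective hinj] at H
  exact H

end Crest.Agent.X212.Par72
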